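/-!
# Plan for S0104 (statements: `Crest.Agent.H8.KK.NDefs`; library `H8/KK/L2.lean`)
Targets `n1 : N1`, `n2 : N2`, `n3 : N3`, `n4 : N4` (files `H8/KK/N1*.lean` ...); helper8 does `HR` and the assembly.
Notation e = e none none, ξ = η none, [x,y] = xy - yx, ε = ph (unimodular), sums over ZMod p.

## N1.  X = List (ZMod p) × List (ZMod p) × Option (ZMod p), H = L2 X ℂ (`separable_L2`), all operators `pull ℂ E`.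
star(a i) = pull of the total injection (v,w,x) ↦ (v ++ [i],w,x); star(l i): (v,w,x) ↦ (i :: v,w,x); same for b, l' in w;
e x y = pull of (v,w,x) ↦ (v,w,y).  η x = δ_([],[],x).  Tip: build PEquivs on the factors and a product of PEquivs
(or prove `pull` identities by `pull_mul`, `star_pull`, PEquiv.ext).  cd: [l_i,a_k] = 0 = [l_i*,a_k*],
[l_i*,a_k] = δ P₀, [l_i,a_k*] = -δ P₀ (P₀ = projection on v = []); check pointwise with cases on v.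

## N2.  D_i = [m,a_i] = -[m,a_i*], B_j = [y,b_j] = -[y,b_j*]; D's and D*'s commute with B's and B*'s.
Column bound ∑‖D_iζ‖² ≤ 4‖m‖²‖ζ‖² (D_i = a_i*m - m a_i*, ∑‖a_i*ζ‖² ≤ ‖ζ‖²), row bound ∑‖D_i*ζ‖² ≤ 4‖m‖²‖ζ‖²
(D_i* = a_i*m* - m*a_i*); same for B.  [y,V_i] = p^{-1/2}∑_j ε_ij B_j e_{i+j,*}.  With ζ = eζ₀ (‖ζ‖ ≤ ‖ζ₀‖):
‖Sζ₀‖² = p⁻¹∑_k‖∑_i ε_{i,k-i}D_iB_{k-i}ζ‖² = p⁻¹∑_d∑_{i,j} conj(ε_ij) ε_{i+d,j-d} <D_iB_jζ, D_{i+d}B_{j-d}ζ>.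
d = 0: ≤ 16‖m‖²‖y‖²‖ζ‖².  d ≠ 0: the phase is ψ(2dij) α_i β_j with α_i = ψ(-d(i+d)²), β_j = ψ(d²j), the inner product is
<B_{j-d}*B_jζ, D_i*D_{i+d}ζ>; Plancherel ∑_j‖∑_iψ(2dij)z_i‖² = p∑‖z_i‖² (2d ≠ 0, `AddChar.sum_mulShift`/`ZMod.isPrimitive_stdAddChar`)
gives ≤ √p (∑_j‖B_{j-d}*B_jζ‖²)^½(∑_i‖D_i*D_{i+d}ζ‖²)^½; Cauchy–Schwarz over d and row∘column give √p·4‖y‖²·4‖m‖²‖ζ‖².

## N3.  V_i*V_k = δ e, V = Ve, eV = 0, V commutes with a, a*.  W*W = P, WW* = Q, W² = 0, P,Q orthogonal projections,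
W = QWP, so U is unitary.  G_i = [y,V_i], G'_i = [y,V_i*], T = ∑D_iG'_i = -S(m*,y*)*.  [y,UmU*] = [y,[U,m]]U* + [U,m][y,U*],
[U,m] = -e∑(a_iD_i - D_ia_i*) + ∑D_iV_i + ∑V_i*D_i, [y,[U,m]] = S + T (y commutes with D, a, a*, e; D with V, V*, G'),
[y,U*] = -∑(G_kV_k* + V_kG'_k) + ∑G'_ka_k - ∑a_k*G_k.  Use eG = 0, Ge = G, eG' = G', G'e = 0, V_i*G_k = -G'_iV_k,
D_ia_k = a_i*D_k:  [U,m][y,W] = -TW, [U,m][y,Q] = T(1-Q), [U,m][y,W*] = (1-P+W)T.  Total ≤ ‖S‖ + 5‖T‖.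

## N4.  c_i = l_i+l_i*, c'_j likewise, L(x) = ∑_{ij} conj(ε_ij) <η_{i+j}, (c'_j x_i - x_i c'_j) ξ>.  For x_i = Uc_iU*:
U*ξ = ξ, c_iξ = a_iξ, U a_iζ = V_iζ for ζ ∈ {ξ, b_jξ}, U*b_jξ = b_jξ, c'_jη_k = b_jη_k, so each term is p^{-1/2}: L = p^{3/2}.
For x'_i = v x_i v*: L = 0.  z_i = x_i - x'_i = (1-v)Uc_iU* + vUc_iU*(1-v*).  First half: ∑_i<∑_jε_ij b_jη_{i+j}, z_iξ>,
‖∑_j‖ = √p, ‖z_i‖ ≤ 4‖v-1‖.  Second half: Φ(A,B) = ∑ conj ε <η_{i+j}, A c_i B b_jξ> has |Φ| ≤ 2‖A‖‖B‖p^{3/2}: l_i* part, fix j,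
Cauchy–Schwarz in i with ∑_i‖l_i*ζ‖² ≤ ‖ζ‖²; l_i part, fix k = i+j, move l_i to the left.  So p^{3/2} ≤ 8‖v-1‖p^{3/2}.
-/
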