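/-!
# Plan for S0105 (statements: `Crest.Agent.H8.KK.ODefs`; library `H8/KK/L2.lean`)
Targets `o1 : O1`, `o2a : O2a`, `o2b : O2b`, `o5a : O5a`, `o5b : O5b`, `o3 : O3`, `o4 : O4`, `o6 : O5a → O6`
(files `H8/KK/O1*.lean` ...); helper8 assembles.

## O1.  c = √(1-s²), R_a = 1 + (c-1)(e_{11}+e_{aa}) + s(e_{1a}-e_{a1}) (a ≠ 1, unitary rotation), π(of i) = R_{of i} λ(of i),
π = FreeGroup.lift into `unitary`.  W_g = π g λ(g)*.  For a letter a: π(a)λ(a)* = rotation R in the plane (δ_1, δ_a) by ±angle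
(for a = (of i)⁻¹ it is λ(a)R*λ(a)*), W_{a h} = R · λ(a)W_hλ(a)*.  Induct on reduced lists L (`FreeGroup.IsReduced`, g = mk g.toWord):
(i) W_L δ_x = δ_x unless x = mk (L.take k) for some k; for a::L reduced a⁻¹ is not such an x, so W' = λ(a)W_Lλ(a)* fixes δ_1;
(ii) with v = (W-1)ξ: ‖v‖² + 3|v_1|² ≤ 30s²‖ξ‖² - 15s²|ξ_1|² for L ≠ [] and trivially ≤ 30 s²‖ξ‖²-15s²|ξ_1|² for L = [].
Step: η = (W'-1)ξ = (W'-1)(ξ-ξ_1δ_1), η_1 = 0, ‖η‖²+3|η_a|² ≤ 30s²(‖ξ‖²-|ξ_1|²)-15s²|ξ_a|²; v = η off {1,a},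
v_1 = (c-1)ξ_1 ± s(ξ_a+η_a), v_a = ∓sξ_1+(c-1)ξ_a+cη_a, |1-c| ≤ s²: |v_a|²+4|v_1|² ≤ 15s²|ξ_1|²+15s²|ξ_a|²+4|η_a|².
Span property: the span of the `eu x y` is closed under products and under left/right multiplication by λ.

## O2a.  P_i = projection on words starting with (i,true), Q_i on words starting with (i,false);
(1-P_i)λ(of i) = λ(of i)Q_i, orthogonal ranges resp. supports give ‖∑P_iλ_i‖ ≤ √r, ‖∑λ_iQ_i‖ ≤ √r.
## O2b.  B_n = ball of radius n (finite); x ↦ of i * x is a bijection between two subsets of B_n, extend it to a permutation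
(`Equiv.extendSubtype`/`Function.Embedding`/card), lift; by induction on toWord φ(g)·1 = g for norm g ≤ n; transport to Fin.

## O5a.  `exists_perm₂` with (x,h) ↦ (a h⁻¹ x, h) intertwines tr λ a g with dg (λ g), so the norm is ‖dg(lin λ c)‖ (`norm_dg`).
U_π = dgf π: tr π reg g U_π = U_π prm reg g; W = dgf (π x λ(x)*), ‖W-1‖ ≤ κ, tr π reg g = W tr λ reg g W*.
## O5b.  lin (tr ν (lm φ)) c = ∑_{z∈G} dg (lin ν c_z) pull(z⁻¹·), c_z = c restricted to φ = z, lin λ c_z = ∑_w P_{zw}(lin λ c)P_w,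
so ‖lin(tr ν ..)c‖ ≤ C'‖lin λ c‖ for all c.  With c* (inverse, conj): lin ρ c* = star (lin ρ c) for IsU ρ.  Apply to (c*c)^(2^k),
use `IsSelfAdjoint.norm_pow_two_pow`/C⋆-identity on both sides and let k → ∞.

## O3.  Lifting lemma: S closed NonUnitalStarSubalgebra, (j,y) ∈ Gr, j ∈ S ⇒ ∃ j₁ ∈ S, (j₁,y) ∈ Gr, ‖j₁‖ ≤ 2‖y‖ (real and imaginary
parts; f = clamp to [-‖y‖,‖y‖], `cfcₙ_mem`, `cfc_mem` for Gr, `cfc_map_prod`/map_cfc).  I is closed under left/right mult by J and ρ b g.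
Close: a ≈ i + ρ_b(c), ‖θ_b c‖ ≤ 1+τ, j₀ = ±(ρ₁(c)-ρ₀(c)) ∈ J, a' = i + ρ_b(c) + j₁ = i + (j₁-j₀) + ρ_{!b}(c); normalise.
Commutants: both equal the centralizer of I (Tρζ = Tρeζ = ρeTζ = ρTeζ on the total set).
## O4.  (i) a ∈ A b has a partner in the closure of lin θ_b; (ii) a ∈ A b, (a,0) ∈ Gr ⇒ I a (fell: ρ₀(c_n) → 0);
(iii) A false = I + C₀, C₀ = closure of range lin ρ₀, ‖y‖ = ‖q y‖ on C₀; (iv) τ_b(a) = <ω,q(a)ω> is a trace on A b, and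
τ_b(a*a) = 0 ⇒ q a = 0 (faith, by continuity); (v) for α = Ad u : A b → A b' and k ∈ I, T = τ∘α: T(k*E_xxk) = T(E_yx kk*E_xy) for all y,
‖∑_{y∈F}E_yx kk*E_xy‖ ≤ ‖k‖², Γ infinite ⇒ T(k*E_xxk) = 0, E_lim ⇒ T(k*k) = 0 ⇒ α k ∈ I; both directions.
(vi) u*ρ₁(g)u = i_g + y_g, ν g = u y_g u*; multiplicative/unitary since q is isometric on C₀; ‖lin ν c‖ = ‖q(u*ρ₁(c)u)‖ ≤ ‖ρ₁(c)+i‖
for every i ∈ I; take ρ₁(c)+i = ρ₀(c)+j₁ (lifting lemma; C = 1+2|η|).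

## O6.  K = L2 Γ ℂ, X = Σ n, Perm (Fin (m n)), a = blockwise lm (φ n), H = L2 X K, H' = L2 Γ K, ρ b = tr π_b a, θ b = tr π_b reg.
B_n = {g | index g ≤ N(n)} or simply B_n = {g ∈ F | φ n injective ...}: any sets with φ n injective on B_n and every g eventually in B_n
(e.g. B_n = {g | ∀ h, enc h ≤ enc g → φ n h = φ n g → h = g}).  V_n = pull (⟨n, φ n g⟩ ↦ g, g ∈ B_n) : H' → H, ‖V_nζ‖ → ‖ζ‖.
Gr = {(Y,Y') | ∀ζ, YV_nζ - V_nY'ζ → 0 and Y*V_nζ - V_nY'*ζ → 0} (enough on singles, bounded operators).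
J = closure of the span of dg(eu x y) * prm a g * P_o (o : Option ℕ, P_none = 1, P_(some n) = block n); partner of a generator:
dg(eu x y) prm reg g, resp. 0.  E x y = dg (eu x y); ω = single 1 (dlt 1); faith: Z = singles, ‖lin θ c (single h k)‖² = ∑|c_g|²‖k‖²;
tot: Z = single ⟨n,x⟩ (dlt y), e = E y y P_n.  Last claim: ζ_n x = |G|^{-½} single ⟨n,x⟩ (dlt 1) in L2 G H;
<ζ_n, tr ρ₁ (lm φ_n) g ζ_n> = <dlt 1, π g dlt 1>; J commutes with right translations of block n, so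
‖(tr ν g - tr ρ₁ g)ζ_n‖ = ‖i_g single ⟨n,1⟩ (dlt 1)‖ = ‖i_g V_nω‖ → 0.
-/
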